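import Vale.Agent.Lib.P069.Dual

open scoped ENNReal

namespace Vale.Agent.Lib.P069

variable {n : ℕ}

/-- sums of a function killed on `D` over a segment are sums of the function over a
shorter segment, or zero -/
lemma segSum_restrict {D : Set (List ℕ)} (hD : SuffClosed D) (z : List ℕ → ℝ)
    [DecidablePred (· ∈ D)] (c : List ℕ) :
    ∀ a : List ℕ, (∃ a' c' : List ℕ, c'.length ≤ c.length ∧
      segSum (fun s => if s ∈ D then 0 else z s) a c = segSum z a' c') ∨
      segSum (fun s => if s ∈ D then 0 else z s) a c = 0 := by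
  induction c using List.reverseRecOn with
  | nil =>
    intro a
    by_cases ha : a ∈ D
    · right; simp [ha]
    · left; exact ⟨a, [], le_refl _, by simp [ha]⟩
  | append_singleton c₀ j ih =>
    intro a
    by_cases ha : a ∈ D
    · have h1 : segSum (fun s => if s ∈ D then 0 else z s) a (c₀ ++ [j]) =
          segSum (fun s => if s ∈ D then 0 else z s) (j :: a) c₀ := by
        rw [segSum_append_cons]
        simp [ha]
      rw [h1]
      rcases ih (j :: a) with ⟨a', c', hlen, h⟩ | h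
      · left; exact ⟨a', c', hlen.trans (by simp), h⟩
      · right; exact h
    · left
      refine ⟨a, c₀ ++ [j], le_refl _, ?_⟩
      apply segSum_congr
      intro d _
      rw [if_neg (hD.append_not_mem ha d)]

/-- the restriction of `z` to the complement of `D` -/
noncomputable def restr (D : Finset (List ℕ)) (z : Y n) : Y n :=
  Y.ofFs n ((Y.toFs n z).filter (fun s => s ∉ D))

lemma restr_apply (D : Finset (List ℕ)) (z : Y n) (s : List ℕ) :
    restr D z s = if s ∈ D then 0 else z s := by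
  show ((Y.toFs n z).filter (fun s => s ∉ D)) s = _
  rw [Finsupp.filter_apply]
  split_ifs <;> simp_all

lemma norm_restr_le {D : Finset (List ℕ)} (hD : SuffClosed (D : Set (List ℕ))) (z : Y n) :
    ‖restr D z‖ ≤ ‖z‖ := by
  rw [Y.norm_le_iff _ (norm_nonneg z)]
  constructor
  · intro S
    refine le_trans ?_ (Y.sum_sq_le z S)
    apply Finset.sum_le_sum
    intro s _
    rw [restr_apply]
    split_ifs
    · simpa using sq_nonneg (z s)
    · exact le_refl _
  · intro a c hc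
    have h1 : (fun s => restr D z s) = fun s => if s ∈ (D : Set (List ℕ)) then 0 else z s := by
      funext s
      rw [restr_apply]
      simp
    rw [h1]
    rcases segSum_restrict hD (fun s => z s) c a with ⟨a', c', hlen, h⟩ | h
    · rw [h]
      exact Y.abs_segSum_le z a' c' (hlen.trans hc)
    · rw [h, abs_zero]
      exact norm_nonneg z

lemma apply_restr (g : X n) {D : Finset (List ℕ)} (hg : ∀ s ∈ D, g (bv n s) = 0) (z : Y n) :
    g (restr D z) = g z := by
  set S : Finset (List ℕ) := (Y.toFs n z).support with hS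
  have hSz : ∀ s, z s ≠ 0 → s ∈ S := fun s hs => Finsupp.mem_support_iff.mpr hs
  have hSr : ∀ s, restr D z s ≠ 0 → s ∈ S := by
    intro s hs
    rw [restr_apply] at hs
    split_ifs at hs with h
    · exact absurd rfl hs
    · exact hSz s hs
  rw [apply_eq_sum g z S hSz, apply_eq_sum g (restr D z) S hSr]
  apply Finset.sum_congr rfl
  intro s _
  rw [restr_apply]
  split_ifs with h
  · rw [hg s h]; ring
  · rfl

/-- suffix closure of a finite set of nodes -/
def sclose (A : Finset (List ℕ)) : Finset (List ℕ) :=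
  insert [] (A.biUnion (fun s => s.tails.toFinset))

lemma subset_sclose (A : Finset (List ℕ)) : A ⊆ sclose A := by
  intro s hs
  apply Finset.mem_insert_of_mem
  rw [Finset.mem_biUnion]
  exact ⟨s, hs, by simp⟩

lemma suffClosed_sclose (A : Finset (List ℕ)) : SuffClosed (sclose A : Set (List ℕ)) := by
  constructor
  · simp [sclose]
  · intro k p h
    have h' : k :: p ∈ sclose A := h
    have : p ∈ sclose A := by
      unfold sclose at h' ⊢
      rw [Finset.mem_insert] at h'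
      rcases h' with h' | h'
      · exact absurd h' (by simp)
      · apply Finset.mem_insert_of_mem
        rw [Finset.mem_biUnion] at h' ⊢
        obtain ⟨s, hs, hks⟩ := h'
        refine ⟨s, hs, ?_⟩
        rw [List.mem_toFinset, List.mem_tails] at hks ⊢
        exact (List.suffix_cons k p).trans hks
    exact this

/-- the key decomposition at the level of `Y n` -/
theorem ball_decomp {D : Finset (List ℕ)} (hD : SuffClosed (D : Set (List ℕ)))
    (x z : Y n) (hx : ‖x‖ ≤ 1) (hxD : ∀ s, s ∉ D → x s = 0) (hz : ‖z‖ ≤ 1)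
    (hzD : ∀ s ∈ D, z s = 0) :
    ∃ z₁ z₂ : Y n, z₁ - z₂ = z ∧ (∀ s ∈ D, z₁ s = 0) ∧ (∀ s ∈ D, z₂ s = 0) ∧
      ∀ α β : ℝ, 0 ≤ α → 0 ≤ β → β ≤ 1 / 2 → α ^ 2 + β ^ 2 ≤ 1 →
        ‖α • x + β • z₁‖ ≤ 1 ∧ ‖α • x + β • z₂‖ ≤ 1 := by
  set xf : List ℕ → ℝ := fun s => x s with hxf
  set zf : List ℕ → ℝ := fun s => z s with hzf
  set Ds : Set (List ℕ) := (D : Set (List ℕ)) with hDs
  have hxD' : ∀ s, s ∉ Ds → xf s = 0 := fun s hs => hxD s (by simpa [hDs] using hs)
  have hzD' : ∀ s ∈ Ds, zf s = 0 := fun s hs => hzD s (by simpa [hDs] using hs)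
  have hxseg : ∀ a c : List ℕ, c.length ≤ n → |segSum xf a c| ≤ 1 :=
    fun a c hc => (Y.abs_segSum_le x a c hc).trans hx
  have hzseg : ∀ a c : List ℕ, c.length ≤ n → |segSum zf a c| ≤ 1 :=
    fun a c hc => (Y.abs_segSum_le z a c hc).trans hz
  have hsupp1 : ∀ v, zOne xf zf n Ds v ≠ 0 → v ∈ (Y.toFs n z).support := by
    intro v hv
    rw [Finsupp.mem_support_iff]
    intro h0
    have h1 := abs_zOne_le (x := xf) (z := zf) (n := n) hD v
    have h2 : zf v = 0 := h0
    rw [h2, abs_zero] at h1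
    exact hv (abs_eq_zero.mp (le_antisymm h1 (abs_nonneg _)))
  have hsupp2 : ∀ v, zTwo xf zf n Ds v ≠ 0 → v ∈ (Y.toFs n z).support := by
    intro v hv
    rw [Finsupp.mem_support_iff]
    intro h0
    have h1 := abs_zTwo_le (x := xf) (z := zf) (n := n) hD v
    have h2 : zf v = 0 := h0
    rw [h2, abs_zero] at h1
    exact hv (abs_eq_zero.mp (le_antisymm h1 (abs_nonneg _)))
  set z₁ : Y n := Y.ofFs n (Finsupp.onFinset (Y.toFs n z).support (zOne xf zf n Ds) hsupp1)
    with hz₁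
  set z₂ : Y n := Y.ofFs n (Finsupp.onFinset (Y.toFs n z).support (zTwo xf zf n Ds) hsupp2)
    with hz₂
  have hz₁v : ∀ v, z₁ v = zOne xf zf n Ds v := fun v => rfl
  have hz₂v : ∀ v, z₂ v = zTwo xf zf n Ds v := fun v => rfl
  refine ⟨z₁, z₂, ?_, ?_, ?_, ?_⟩
  · apply Y.ext
    intro v
    rw [Y.sub_apply, hz₁v, hz₂v, zOne_sub_zTwo]
  · intro s hs
    rw [hz₁v]
    exact zOne_of_mem hD hzD' (by simpa [hDs] using hs)
  · intro s hs
    rw [hz₂v]
    exact zTwo_of_mem hD (by simpa [hDs] using hs)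
  · intro α β hα0 hβ0 hβ hαβ
    have hα1 : α ≤ 1 := by nlinarith
    have hball := fun a c hc => seg_ball (n := n) hD (x := xf) (z := zf) hxD' hzD' hxseg hzseg
      hα0 hα1 hβ0 hβ a c hc
    have hsq : ∀ (ζ : Y n), (∀ v, |ζ v| ≤ |z v|) → (∀ v ∈ Ds, ζ v = 0) →
        ∀ S : Finset (List ℕ), ∑ s ∈ S, ((α • x + β • ζ) s) ^ 2 ≤ 1 ^ 2 := by
      intro ζ hζ hζD S
      have h1 : ∀ s ∈ S, ((α • x + β • ζ) s) ^ 2 ≤ α ^ 2 * (x s) ^ 2 + β ^ 2 * (z s) ^ 2 := by
        intro s _
        rw [Y.add_apply, Y.smul_apply, Y.smul_apply]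
        by_cases hs : s ∈ Ds
        · rw [hζD s hs]
          nlinarith [sq_nonneg (β * z s)]
        · have hx0 : x s = 0 := hxD' s hs
          rw [hx0]
          have h2 : (ζ s) ^ 2 ≤ (z s) ^ 2 := sq_le_sq.mpr (hζ s)
          nlinarith [sq_nonneg β]
      calc ∑ s ∈ S, ((α • x + β • ζ) s) ^ 2
          ≤ ∑ s ∈ S, (α ^ 2 * (x s) ^ 2 + β ^ 2 * (z s) ^ 2) := Finset.sum_le_sum h1
        _ = α ^ 2 * ∑ s ∈ S, (x s) ^ 2 + β ^ 2 * ∑ s ∈ S, (z s) ^ 2 := by
            rw [Finset.sum_add_distrib, Finset.mul_sum, Finset.mul_sum]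
        _ ≤ α ^ 2 * 1 + β ^ 2 * 1 := by
            have h2 := (Y.sum_sq_le x S).trans (pow_le_pow_left₀ (norm_nonneg x) hx 2)
            have h3 := (Y.sum_sq_le z S).trans (pow_le_pow_left₀ (norm_nonneg z) hz 2)
            rw [one_pow] at h2 h3
            exact add_le_add (mul_le_mul_of_nonneg_left h2 (sq_nonneg α))
              (mul_le_mul_of_nonneg_left h3 (sq_nonneg β))
        _ ≤ 1 ^ 2 := by linarith
    constructor
    · rw [Y.norm_le_iff _ zero_le_one]
      refine ⟨hsq z₁ (fun v => abs_zOne_le hD v) (fun v hv => zOne_of_mem hD hzD' hv), ?_⟩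
      intro a c hc
      exact (hball a c hc).1
    · rw [Y.norm_le_iff _ zero_le_one]
      refine ⟨hsq z₂ (fun v => abs_zTwo_le hD v) (fun v hv => zTwo_of_mem hD hv), ?_⟩
      intro a c hc
      exact (hball a c hc).2

/-- the coordinatewise midpoint inequality in the dual of `Y n` -/
theorem coord_ineq (f : X n) {ε : ℝ} (hε : 0 < ε) :
    ∃ D : Finset (List ℕ), ∀ g : X n, (∀ s ∈ D, g (bv n s) = 0) →
      ∀ α β : ℝ, 0 ≤ α → 0 ≤ β → β ≤ 1 / 2 → α ^ 2 + β ^ 2 ≤ 1 →
        2 * α * ‖f‖ + β * ‖g‖ - ε ≤ ‖f + g‖ + ‖f - g‖ := by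
  have hε' : 0 < ε / 5 := by positivity
  obtain ⟨D₀, hD₀⟩ := tail_small f hε'
  obtain ⟨x, hx1, hx2⟩ := exists_norming f hε'
  set D : Finset (List ℕ) := sclose (D₀ ∪ (Y.toFs n x).support) with hDdef
  have hD : SuffClosed (D : Set (List ℕ)) := suffClosed_sclose _
  have hsub : D₀ ∪ (Y.toFs n x).support ⊆ D := subset_sclose _
  have hxD : ∀ s, s ∉ D → x s = 0 := by
    intro s hs
    by_contra h
    exact hs (hsub (Finset.mem_union_right _ (Finsupp.mem_support_iff.mpr h)))
  refine ⟨D, ?_⟩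
  intro g hg α β hα0 hβ0 hβ hαβ
  have hα1 : α ≤ 1 := by nlinarith
  obtain ⟨z₀, hz1, hz2⟩ := exists_norming g hε'
  set z : Y n := restr D z₀ with hzdef
  have hz : ‖z‖ ≤ 1 := (norm_restr_le hD z₀).trans hz1
  have hgz : g z = g z₀ := apply_restr g hg z₀
  have hzD : ∀ s ∈ D, z s = 0 := by
    intro s hs
    rw [hzdef, restr_apply, if_pos hs]
  obtain ⟨z₁, z₂, hdiff, hz₁D, hz₂D, hball⟩ := ball_decomp hD x z hx1 hxD hz hzD
  obtain ⟨hw1, hw2⟩ := hball α β hα0 hβ0 hβ hαβ
  obtain ⟨hh1, hh2⟩ := hball 0 (1 / 2) le_rfl (by norm_num) le_rfl (by norm_num)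
  have hn1 : ‖z₁‖ ≤ 2 := by
    rw [zero_smul, zero_add, norm_smul] at hh1
    norm_num at hh1
    linarith
  have hn2 : ‖z₂‖ ≤ 2 := by
    rw [zero_smul, zero_add, norm_smul] at hh2
    norm_num at hh2
    linarith
  have hf1 : |f z₁| ≤ ε / 5 * 2 :=
    (hD₀ z₁ (fun s hs => hz₁D s (hsub (Finset.mem_union_left _ hs)))).trans
      (mul_le_mul_of_nonneg_left hn1 hε'.le)
  have hf2 : |f z₂| ≤ ε / 5 * 2 :=
    (hD₀ z₂ (fun s hs => hz₂D s (hsub (Finset.mem_union_left _ hs)))).trans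
      (mul_le_mul_of_nonneg_left hn2 hε'.le)
  have e1 : (f + g) (α • x + β • z₁) ≤ ‖f + g‖ := by
    refine (le_abs_self _).trans (((f + g).le_opNorm _).trans ?_)
    exact mul_le_of_le_one_right (norm_nonneg _) hw1
  have e2 : (f - g) (α • x + β • z₂) ≤ ‖f - g‖ := by
    refine (le_abs_self _).trans (((f - g).le_opNorm _).trans ?_)
    exact mul_le_of_le_one_right (norm_nonneg _) hw2
  have c1 : (f + g) (α • x + β • z₁) = α * f x + β * f z₁ + (α * g x + β * g z₁) := by
    simp only [add_apply, map_add, map_smul, smul_eq_mul]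
    ring
  have c2 : (f - g) (α • x + β • z₂) = α * f x + β * f z₂ - (α * g x + β * g z₂) := by
    simp only [sub_apply, map_add, map_smul, smul_eq_mul]
    ring
  have c3 : g z₁ - g z₂ = g z := by rw [← map_sub, hdiff]
  rw [c1] at e1
  rw [c2] at e2
  have b1 := abs_le.mp hf1
  have b2 := abs_le.mp hf2
  have hgz' : ‖g‖ - ε / 5 ≤ g z₁ - g z₂ := by rw [c3, hgz]; exact hz2
  nlinarith [mul_nonneg hα0 hε'.le, mul_nonneg hβ0 hε'.le, mul_le_mul_of_nonneg_left hx2 hα0,
    mul_le_mul_of_nonneg_left hgz' hβ0, mul_le_mul_of_nonneg_left b1.1 hβ0,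
    mul_le_mul_of_nonneg_left b2.1 hβ0, mul_le_mul_of_nonneg_right hα1 hε'.le,
    mul_le_mul_of_nonneg_right hβ hε'.le]

end Vale.Agent.Lib.P069
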