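import Mathlib

namespace Vale.Agent.Lib.P069

/-- `IsAUC N`: the function `N` (a norm on `X`) is asymptotically uniformly convex:
for every `t > 0` there is `δ > 0` such that every `x` with `N x = 1` admits a closed
subspace `F` of finite codimension with `N (x + t • y) ≥ 1 + δ` for all `y ∈ F`, `N y = 1`. -/
def IsAUC {X : Type*} [NormedAddCommGroup X] [NormedSpace ℝ X] (N : X → ℝ) : Prop :=
  ∀ t : ℝ, 0 < t → ∃ δ : ℝ, 0 < δ ∧ ∀ x : X, N x = 1 →
    ∃ F : Submodule ℝ X, IsClosed (F : Set X) ∧ FiniteDimensional ℝ (X ⧸ F) ∧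
      ∀ y ∈ F, N y = 1 → 1 + δ ≤ N (x + t • y)

/-- `IsAMUC N`: the function `N` (a norm on `X`) is asymptotically midpoint uniformly convex:
for every `t > 0` there is `δ > 0` such that every `x` with `N x = 1` admits a closed
subspace `F` of finite codimension with `max (N (x + t • y)) (N (x - t • y)) ≥ 1 + δ`
for all `y ∈ F`, `N y = 1`. -/
def IsAMUC {X : Type*} [NormedAddCommGroup X] [NormedSpace ℝ X] (N : X → ℝ) : Prop :=
  ∀ t : ℝ, 0 < t → ∃ δ : ℝ, 0 < δ ∧ ∀ x : X, N x = 1 →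
    ∃ F : Submodule ℝ X, IsClosed (F : Set X) ∧ FiniteDimensional ℝ (X ⧸ F) ∧
      ∀ y ∈ F, N y = 1 → 1 + δ ≤ max (N (x + t • y)) (N (x - t • y))

end Vale.Agent.Lib.P069
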