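import Vale.Agent.Lib.P069.Space

open scoped ENNReal

namespace Vale.Agent.Lib.P069

variable {n : ℕ}

/-- the unit vector of `Y n` at the node `s` -/
noncomputable def bv (n : ℕ) (s : List ℕ) : Y n := Y.ofFs n (Finsupp.single s 1)

lemma bv_apply (s t : List ℕ) : bv n s t = if s = t then 1 else 0 := by
  show (Finsupp.single s (1 : ℝ)) t = _
  rw [Finsupp.single_apply]

/-- evaluation at a node, as a linear map -/
noncomputable def evl (n : ℕ) (t : List ℕ) : Y n →ₗ[ℝ] ℝ := (Finsupp.lapply t) ∘ₗ (Y.toFs n)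

@[simp] lemma evl_apply (t : List ℕ) (x : Y n) : evl n t x = x t := rfl

lemma Y.sum_apply {ι : Type*} (S : Finset ι) (g : ι → Y n) (t : List ℕ) :
    (∑ i ∈ S, g i) t = ∑ i ∈ S, g i t := by
  exact map_sum (evl n t) g S

lemma Y.eq_sum (x : Y n) (S : Finset (List ℕ)) (hS : ∀ s, x s ≠ 0 → s ∈ S) :
    x = ∑ s ∈ S, (x s) • bv n s := by
  apply Y.ext
  intro t
  rw [Y.sum_apply]
  simp only [Y.smul_apply, bv_apply, mul_ite, mul_one, mul_zero]
  rw [Finset.sum_ite_eq']
  split_ifs with h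
  · rfl
  · by_contra h2
    exact h (hS t h2)

lemma segSum_ind_zero (s a c : List ℕ) (h : c.length + a.length < s.length) :
    segSum (fun t => if s = t then (1 : ℝ) else 0) a c = 0 := by
  apply segSum_eq_zero
  intro d hd
  have h1 : (d ++ a).length ≤ c.length + a.length := by
    rw [List.length_append]
    exact Nat.add_le_add_right hd.length_le _
  rw [if_neg]
  intro h'
  rw [h'] at h
  omega

lemma segSum_ind_bounds (s a c : List ℕ) :
    0 ≤ segSum (fun t => if s = t then (1 : ℝ) else 0) a c ∧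
      segSum (fun t => if s = t then (1 : ℝ) else 0) a c ≤ 1 := by
  induction c with
  | nil =>
    simp only [segSum_nil]
    split_ifs <;> norm_num
  | cons k c ih =>
    simp only [segSum_cons]
    by_cases h : s = k :: (c ++ a)
    · rw [if_pos h, segSum_ind_zero s a c (by rw [h]; simp)]
      norm_num
    · rw [if_neg h, zero_add]
      exact ih

lemma norm_bv_le (n : ℕ) (s : List ℕ) : ‖bv n s‖ ≤ 1 := by
  rw [Y.norm_le_iff _ zero_le_one]
  constructor
  · intro S
    have h1 : ∀ t ∈ S, (bv n s t) ^ 2 = if s = t then (1 : ℝ) else 0 := by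
      intro t _
      rw [bv_apply]
      split_ifs <;> norm_num
    rw [Finset.sum_congr rfl h1, Finset.sum_ite_eq]
    split_ifs <;> norm_num
  · intro a c _
    have h1 : (fun t => bv n s t) = fun t => if s = t then (1 : ℝ) else 0 := by
      funext t
      exact bv_apply s t
    rw [h1]
    have := segSum_ind_bounds s a c
    rw [abs_le]
    constructor <;> linarith [this.1, this.2]

/-- the dual space -/
abbrev X (n : ℕ) : Type := StrongDual ℝ (Y n)

lemma apply_eq_sum (f : X n) (x : Y n) (S : Finset (List ℕ)) (hS : ∀ s, x s ≠ 0 → s ∈ S) :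
    f x = ∑ s ∈ S, x s * f (bv n s) := by
  conv_lhs => rw [Y.eq_sum x S hS]
  rw [map_sum]
  apply Finset.sum_congr rfl
  intro s _
  rw [map_smul, smul_eq_mul]

lemma exists_norming (f : X n) {ε : ℝ} (hε : 0 < ε) :
    ∃ x : Y n, ‖x‖ ≤ 1 ∧ ‖f‖ - ε ≤ f x := by
  obtain ⟨x, hx1, hx2⟩ := f.exists_lt_apply_of_lt_opNorm (r := ‖f‖ - ε) (by linarith)
  rw [Real.norm_eq_abs] at hx2
  rcases le_or_gt 0 (f x) with h | h
  · refine ⟨x, hx1.le, ?_⟩
    rw [abs_of_nonneg h] at hx2
    exact hx2.le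
  · refine ⟨-x, by rw [norm_neg]; exact hx1.le, ?_⟩
    rw [abs_of_neg h] at hx2
    rw [map_neg]
    exact hx2.le

/-- the vector with prescribed values on a finite set -/
lemma sum_sq_coord_le (f : X n) (A : Finset (List ℕ)) :
    ∑ s ∈ A, (f (bv n s)) ^ 2 ≤ ((n + 1) * ‖f‖) ^ 2 := by
  set R : ℝ := Real.sqrt (∑ s ∈ A, (f (bv n s)) ^ 2) with hR
  have hsum0 : 0 ≤ ∑ s ∈ A, (f (bv n s)) ^ 2 := Finset.sum_nonneg (fun s _ => sq_nonneg _)
  have hR0 : 0 ≤ R := Real.sqrt_nonneg _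
  have hR2 : R ^ 2 = ∑ s ∈ A, (f (bv n s)) ^ 2 := Real.sq_sqrt hsum0
  set w : Y n := ∑ s ∈ A, (f (bv n s)) • bv n s with hw
  have hwt : ∀ t, w t = if t ∈ A then f (bv n t) else 0 := by
    intro t
    rw [hw, Y.sum_apply]
    simp only [Y.smul_apply, bv_apply, mul_ite, mul_one, mul_zero]
    rw [Finset.sum_ite_eq']
  have hfw : f w = ∑ s ∈ A, (f (bv n s)) ^ 2 := by
    rw [hw, map_sum]
    apply Finset.sum_congr rfl
    intro s _
    rw [map_smul, smul_eq_mul, sq]
  have habs : ∀ t, |w t| ≤ R := by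
    intro t
    rw [hwt]
    split_ifs with h
    · apply Real.abs_le_sqrt
      exact Finset.single_le_sum (f := fun s => (f (bv n s)) ^ 2) (fun s _ => sq_nonneg _) h
    · simpa using hR0
  have hn1 : (0 : ℝ) ≤ (n : ℝ) + 1 := by positivity
  have hwnorm : ‖w‖ ≤ (n + 1) * R := by
    rw [Y.norm_le_iff _ (mul_nonneg hn1 hR0)]
    constructor
    · intro S
      have h1 : ∑ t ∈ S, (w t) ^ 2 ≤ ∑ t ∈ A, (f (bv n t)) ^ 2 := by
        have h2 : ∀ t ∈ S, (w t) ^ 2 = if t ∈ A then (f (bv n t)) ^ 2 else 0 := by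
          intro t _
          rw [hwt]
          split_ifs <;> simp
        rw [Finset.sum_congr rfl h2, ← Finset.sum_filter]
        apply Finset.sum_le_sum_of_subset_of_nonneg
        · intro t ht
          exact (Finset.mem_filter.mp ht).2
        · intro t _ _
          exact sq_nonneg _
      rw [← hR2] at h1
      refine h1.trans ?_
      rw [mul_pow]
      have : (1 : ℝ) ≤ ((n : ℝ) + 1) ^ 2 := by
        have : (1 : ℝ) ≤ (n : ℝ) + 1 := by linarith [Nat.cast_nonneg (α := ℝ) n]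
        nlinarith
      nlinarith [sq_nonneg R]
    · intro a c hc
      refine (abs_segSum_le_of_forall habs a c).trans ?_
      have : ((c.length : ℝ) + 1) ≤ (n : ℝ) + 1 := by exact_mod_cast Nat.succ_le_succ hc
      exact mul_le_mul_of_nonneg_right this hR0
  have h3 : f w ≤ ‖f‖ * ‖w‖ := (le_abs_self _).trans (f.le_opNorm w)
  rw [hfw, ← hR2] at h3
  have h4 : R ^ 2 ≤ ‖f‖ * ((n + 1) * R) :=
    h3.trans (mul_le_mul_of_nonneg_left hwnorm (norm_nonneg f))
  have h5 : R ≤ (n + 1) * ‖f‖ := by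
    rcases eq_or_lt_of_le hR0 with h0 | h0
    · rw [← h0]
      exact mul_nonneg hn1 (norm_nonneg f)
    · by_contra hcon
      push Not at hcon
      nlinarith
  rw [← hR2]
  exact pow_le_pow_left₀ hR0 h5 2

lemma summable_coord_sq (f : X n) : Summable (fun s : List ℕ => (f (bv n s)) ^ 2) :=
  summable_of_sum_le (fun _ => sq_nonneg _) (sum_sq_coord_le f)

/-- functionals are small on vectors living far away -/
lemma tail_small (f : X n) {ε : ℝ} (hε : 0 < ε) :
    ∃ D₀ : Finset (List ℕ), ∀ w : Y n, (∀ s ∈ D₀, w s = 0) → |f w| ≤ ε * ‖w‖ := by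
  obtain ⟨D₀, hD₀⟩ := summable_iff_vanishing_norm.mp (summable_coord_sq f) (ε ^ 2) (by positivity)
  refine ⟨D₀, ?_⟩
  intro w hw
  set S : Finset (List ℕ) := (Y.toFs n w).support with hS
  have hSw : ∀ s, w s ≠ 0 → s ∈ S := fun s hs => Finsupp.mem_support_iff.mpr hs
  have hdisj : Disjoint S D₀ := by
    rw [Finset.disjoint_left]
    intro s hs hsD
    exact (Finsupp.mem_support_iff.mp hs) (hw s hsD)
  have h1 := hD₀ S hdisj
  rw [Real.norm_eq_abs, abs_of_nonneg (Finset.sum_nonneg (fun s _ => sq_nonneg _))] at h1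
  rw [apply_eq_sum f w S hSw]
  apply abs_le_of_sq_le_sq _ (mul_nonneg hε.le (norm_nonneg w))
  have h2 := Finset.sum_mul_sq_le_sq_mul_sq S (fun s => w s) (fun s => f (bv n s))
  have h3 := Y.sum_sq_le w S
  rw [mul_pow]
  calc (∑ s ∈ S, w s * f (bv n s)) ^ 2
      ≤ (∑ s ∈ S, (w s) ^ 2) * ∑ s ∈ S, (f (bv n s)) ^ 2 := h2
    _ ≤ ‖w‖ ^ 2 * ε ^ 2 := by
        apply mul_le_mul h3 h1.le (Finset.sum_nonneg (fun s _ => sq_nonneg _)) (sq_nonneg _)
    _ = ε ^ 2 * ‖w‖ ^ 2 := by ring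

end Vale.Agent.Lib.P069
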