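import Vale.Agent.Lib.P069.Defs
import Vale.Agent.Lib.P069.Coord

open scoped ENNReal

namespace Vale.Agent.Lib.P069

/-- common kernel of finitely many functionals: closed and of finite codimension -/
theorem finCodimKer {Z : Type*} [NormedAddCommGroup Z] [NormedSpace ℝ Z] {ι : Type*}
    [Fintype ι] (φ : ι → StrongDual ℝ Z) :
    ∃ F : Submodule ℝ Z, IsClosed (F : Set Z) ∧ FiniteDimensional ℝ (Z ⧸ F) ∧
      ∀ g : Z, g ∈ F ↔ ∀ i, φ i g = 0 := by
  let L : Z →L[ℝ] (ι → ℝ) := ContinuousLinearMap.pi φ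
  refine ⟨LinearMap.ker L.toLinearMap, L.isClosed_ker, ?_, ?_⟩
  · exact (L.toLinearMap.quotKerEquivRange).symm.finiteDimensional
  · intro g
    simp only [LinearMap.mem_ker, ContinuousLinearMap.coe_coe]
    constructor
    · intro h i
      exact congrFun h i
    · intro h
      funext i
      exact h i

/-- the coordinatewise midpoint inequality, with a closed subspace of finite codimension -/
theorem coord_submodule (n : ℕ) (f : X n) (ε : ℝ) (hε : 0 < ε) :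
    ∃ F : Submodule ℝ (X n), IsClosed (F : Set (X n)) ∧ FiniteDimensional ℝ (X n ⧸ F) ∧
      ∀ g ∈ F, ∀ α β : ℝ, 0 ≤ α → 0 ≤ β → β ≤ 1 / 2 → α ^ 2 + β ^ 2 ≤ 1 →
        2 * α * ‖f‖ + β * ‖g‖ - ε ≤ ‖f + g‖ + ‖f - g‖ := by
  obtain ⟨D, hD⟩ := coord_ineq f hε
  obtain ⟨F, hF1, hF2, hF3⟩ := finCodimKer (Z := X n) (ι := ↥D)
    (fun s => NormedSpace.inclusionInDoubleDual ℝ (Y n) (bv n s.1))
  refine ⟨F, hF1, hF2, fun g hg => hD g (fun s hs => ?_)⟩
  exact (hF3 g).mp hg ⟨s, hs⟩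

/-- a space on which no equivalent norm is AUC is infinite-dimensional -/
theorem not_finiteDimensional_of_not_auc {X : Type*} [NormedAddCommGroup X] [NormedSpace ℝ X]
    (h : ∀ N : Seminorm ℝ X, (∃ c C : ℝ, 0 < c ∧ ∀ x, c * ‖x‖ ≤ N x ∧ N x ≤ C * ‖x‖) →
      ¬ IsAUC N) : ¬ FiniteDimensional ℝ X := by
  intro hfd
  apply h (normSeminorm ℝ X) ⟨1, 1, one_pos, fun x => by simp⟩
  intro t _
  refine ⟨1, one_pos, fun x _ => ⟨⊥, ?_, inferInstance, ?_⟩⟩
  · simp
  · intro y hy hy1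
    rw [Submodule.mem_bot] at hy
    rw [hy] at hy1
    simp at hy1

end Vale.Agent.Lib.P069
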