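import Vale.Agent.Lib.P069.Glue
import Vale.Agent.Lib.P069.helper35.Obstruction
import Vale.Agent.Lib.P069.helper81.LpTwoReflexive
import Vale.Agent.Lib.P069.helper81.AmucLp
import Vale.Agent.Lib.P069.helper4.XRefl
import Vale.Agent.Lib.P069.helper57.TreeData

open scoped ENNReal

namespace Vale.Agent.Lib.P069

/-- A reflexive, infinite-dimensional real Banach space whose norm is AMUC and which has no
equivalent AUC norm: the `l2`-sum of the duals `X n` of the tree spaces `Y n`. -/
theorem main_counterexample :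
    ∃ (X : Type) (_ : NormedAddCommGroup X) (_ : NormedSpace ℝ X),
      CompleteSpace X ∧ ¬ FiniteDimensional ℝ X ∧
      Function.Surjective (NormedSpace.inclusionInDoubleDual ℝ X) ∧
      IsAMUC (fun x : X => ‖x‖) ∧
      ∀ N : Seminorm ℝ X, (∃ c C : ℝ, 0 < c ∧ ∀ x, c * ‖x‖ ≤ N x ∧ N x ≤ C * ‖x‖) →
        ¬ IsAUC N := by
  have hlast : ∀ N : Seminorm ℝ (lp (fun m : ℕ => X m) 2),
      (∃ c C : ℝ, 0 < c ∧ ∀ x, c * ‖x‖ ≤ N x ∧ N x ≤ C * ‖x‖) → ¬ IsAUC N :=
    fun N hN => not_auc_of_trees tree_data N hN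
  exact ⟨lp (fun m : ℕ => X m) 2, inferInstance, inferInstance, inferInstance,
    not_finiteDimensional_of_not_auc hlast,
    lp_two_reflexive (fun m : ℕ => X m) X_reflexive,
    amuc_lp_two (fun m : ℕ => X m) coord_submodule, hlast⟩

end Vale.Agent.Lib.P069
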