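import Vale.Agent.Lib.P069.Main
import Vale.Agent.Lib.P069.helper80.Moduli

namespace Vale.Agent.Lib.P069

/-- The counterexample, stated with the inf-sup-inf moduli `midBar` and `deltaBar`. -/
theorem main_counterexample_moduli :
    ∃ (X : Type) (_ : NormedAddCommGroup X) (_ : NormedSpace ℝ X),
      CompleteSpace X ∧ ¬ FiniteDimensional ℝ X ∧
      Function.Surjective (NormedSpace.inclusionInDoubleDual ℝ X) ∧
      (∀ t : ℝ, 0 < t → 0 < midBar (fun x : X => ‖x‖) t) ∧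
      ∀ N : Seminorm ℝ X, (∃ c C : ℝ, 0 < c ∧ ∀ x, c * ‖x‖ ≤ N x ∧ N x ≤ C * ‖x‖) →
        ¬ ∀ t : ℝ, 0 < t → 0 < deltaBar N t := by
  obtain ⟨X, i1, i2, hc, hfd, hr, ham, hlast⟩ := main_counterexample
  exact ⟨X, i1, i2, hc, hfd, hr, (isAMUC_iff_midBar _).mp ham,
    fun N hN h => hlast N hN ((isAUC_iff_deltaBar _).mpr h)⟩

end Vale.Agent.Lib.P069
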