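import Vale.Agent.Lib.P069.Tree

open scoped ENNReal

namespace Vale.Agent.Lib.P069

/-- The vector space of finitely supported real functions on the tree of finite sequences of
naturals; it will carry the norm `max (l2 norm) (sup of |sums over segments with ≤ n+1 nodes|)`. -/
def Y (_n : ℕ) : Type := List ℕ →₀ ℝ

noncomputable instance (n : ℕ) : AddCommGroup (Y n) :=
  inferInstanceAs (AddCommGroup (List ℕ →₀ ℝ))

noncomputable instance (n : ℕ) : Module ℝ (Y n) :=
  inferInstanceAs (Module ℝ (List ℕ →₀ ℝ))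

instance (n : ℕ) : FunLike (Y n) (List ℕ) ℝ :=
  inferInstanceAs (FunLike (List ℕ →₀ ℝ) (List ℕ) ℝ)

namespace Y

variable {n : ℕ}

/-- identification with finitely supported functions -/
noncomputable def toFs (n : ℕ) : Y n →ₗ[ℝ] (List ℕ →₀ ℝ) := LinearMap.id

/-- identification with finitely supported functions -/
noncomputable def ofFs (n : ℕ) : (List ℕ →₀ ℝ) →ₗ[ℝ] Y n := LinearMap.id

@[simp] lemma toFs_apply (x : Y n) (s : List ℕ) : toFs n x s = x s := rfl
@[simp] lemma ofFs_apply (x : List ℕ →₀ ℝ) (s : List ℕ) : ofFs n x s = x s := rfl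
@[simp] lemma add_apply (x y : Y n) (s : List ℕ) : (x + y) s = x s + y s := rfl
@[simp] lemma sub_apply (x y : Y n) (s : List ℕ) : (x - y) s = x s - y s := rfl
@[simp] lemma neg_apply (x : Y n) (s : List ℕ) : (- x) s = - x s := rfl
@[simp] lemma smul_apply (r : ℝ) (x : Y n) (s : List ℕ) : (r • x) s = r * x s := rfl
@[simp] lemma zero_apply (s : List ℕ) : (0 : Y n) s = 0 := rfl

lemma ext {x y : Y n} (h : ∀ s, x s = y s) : x = y := Finsupp.ext h

end Y

/-- the embedding into l2 -/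
noncomputable def phi : (List ℕ →₀ ℝ) →ₗ[ℝ] lp (fun _ : List ℕ => ℝ) 2 where
  toFun x := ⟨fun s => x s, (memℓp_zero (Set.Finite.subset x.support.finite_toSet
    (fun i hi => Finsupp.mem_support_iff.mpr hi))).of_exponent_ge zero_le⟩
  map_add' x y := by
    apply lp.ext
    funext s
    rfl
  map_smul' r x := by
    apply lp.ext
    funext s
    rfl

@[simp] lemma phi_apply (x : List ℕ →₀ ℝ) (s : List ℕ) : (phi x : List ℕ → ℝ) s = x s := rfl

lemma segSum_bdd (n : ℕ) (x : List ℕ →₀ ℝ) :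
    BddAbove (Set.range fun p : List ℕ × List ℕ =>
      ‖(if p.2.length ≤ n then segSum (fun s => x s) p.1 p.2 else 0 : ℝ)‖) := by
  refine ⟨(n + 1) * ∑ s ∈ x.support, |x s|, ?_⟩
  rintro _ ⟨p, rfl⟩
  have hB : ∀ s, |x s| ≤ ∑ s ∈ x.support, |x s| := by
    intro s
    by_cases hs : s ∈ x.support
    · exact Finset.single_le_sum (f := fun s => |x s|) (fun i _ => abs_nonneg _) hs
    · rw [Finsupp.notMem_support_iff.mp hs, abs_zero]
      exact Finset.sum_nonneg (fun i _ => abs_nonneg _)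
  have hB0 : 0 ≤ ∑ s ∈ x.support, |x s| := Finset.sum_nonneg (fun i _ => abs_nonneg _)
  simp only
  split_ifs with h
  · rw [Real.norm_eq_abs]
    refine (abs_segSum_le_of_forall hB p.1 p.2).trans ?_
    have : ((p.2.length : ℝ) + 1) ≤ (n : ℝ) + 1 := by exact_mod_cast Nat.succ_le_succ h
    exact mul_le_mul_of_nonneg_right this hB0
  · rw [norm_zero]; positivity

/-- the segment sums, as a bounded family -/
noncomputable def psi (n : ℕ) :
    (List ℕ →₀ ℝ) →ₗ[ℝ] lp (fun _ : List ℕ × List ℕ => ℝ) ∞ where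
  toFun x := ⟨fun p => if p.2.length ≤ n then segSum (fun s => x s) p.1 p.2 else 0,
    memℓp_infty (segSum_bdd n x)⟩
  map_add' x y := by
    apply lp.ext
    funext p
    simp only [lp.coeFn_add, Pi.add_apply, Finsupp.coe_add]
    split_ifs
    · exact segSum_add _ _ _ _
    · simp
  map_smul' r x := by
    apply lp.ext
    funext p
    simp only [lp.coeFn_smul, Pi.smul_apply, Finsupp.coe_smul, RingHom.id_apply, smul_eq_mul]
    split_ifs
    · exact segSum_smul _ _ _ _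
    · simp

lemma psi_apply (n : ℕ) (x : List ℕ →₀ ℝ) (p : List ℕ × List ℕ) :
    (psi n x : List ℕ × List ℕ → ℝ) p =
      if p.2.length ≤ n then segSum (fun s => x s) p.1 p.2 else 0 := rfl

/-- the embedding defining the norm of `Y n` -/
noncomputable def Phi (n : ℕ) :
    Y n →ₗ[ℝ] (lp (fun _ : List ℕ => ℝ) 2 × lp (fun _ : List ℕ × List ℕ => ℝ) ∞) :=
  (phi.prod (psi n)) ∘ₗ (Y.toFs n)

lemma Phi_injective (n : ℕ) : Function.Injective (Phi n) := by
  intro x y h
  have h1 : phi (Y.toFs n x) = phi (Y.toFs n y) := congrArg Prod.fst h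
  apply Y.ext
  intro s
  have h2 := congrArg (fun f : lp (fun _ : List ℕ => ℝ) 2 => (f : List ℕ → ℝ) s) h1
  simpa using h2

noncomputable instance (n : ℕ) : NormedAddCommGroup (Y n) :=
  NormedAddCommGroup.induced (Y n) _ (Phi n) (Phi_injective n)

noncomputable instance (n : ℕ) : NormedSpace ℝ (Y n) :=
  NormedSpace.induced ℝ (Y n) _ (Phi n)

namespace Y

variable {n : ℕ}

lemma norm_def (x : Y n) : ‖x‖ = max ‖phi (toFs n x)‖ ‖psi n (toFs n x)‖ := rfl

lemma phi_norm_le_iff (x : List ℕ →₀ ℝ) {C : ℝ} (hC : 0 ≤ C) :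
    ‖phi x‖ ≤ C ↔ ∀ S : Finset (List ℕ), ∑ s ∈ S, (x s) ^ 2 ≤ C ^ 2 := by
  have hp : 0 < (2 : ℝ≥0∞).toReal := by norm_num
  constructor
  · intro h S
    have h1 := lp.sum_rpow_le_norm_rpow hp (phi x) S
    have h2 : ∑ i ∈ S, ‖(phi x : List ℕ → ℝ) i‖ ^ (2 : ℝ≥0∞).toReal = ∑ s ∈ S, (x s) ^ 2 := by
      apply Finset.sum_congr rfl
      intro s _
      simp
    rw [h2] at h1
    have h3 : ‖phi x‖ ^ (2 : ℝ≥0∞).toReal = ‖phi x‖ ^ 2 := by simp
    rw [h3] at h1
    exact h1.trans (pow_le_pow_left₀ (norm_nonneg _) h 2)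
  · intro h
    apply lp.norm_le_of_forall_sum_le hp hC
    intro S
    have h2 : ∑ i ∈ S, ‖(phi x : List ℕ → ℝ) i‖ ^ (2 : ℝ≥0∞).toReal = ∑ s ∈ S, (x s) ^ 2 := by
      apply Finset.sum_congr rfl
      intro s _
      simp
    rw [h2]
    have h3 : C ^ (2 : ℝ≥0∞).toReal = C ^ 2 := by simp
    rw [h3]
    exact h S

lemma psi_norm_le_iff (x : List ℕ →₀ ℝ) {C : ℝ} (hC : 0 ≤ C) :
    ‖psi n x‖ ≤ C ↔ ∀ a c : List ℕ, c.length ≤ n → |segSum (fun s => x s) a c| ≤ C := by
  constructor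
  · intro h a c hc
    have h1 := lp.norm_apply_le_norm (by simp) (psi n x) (a, c)
    rw [psi_apply] at h1
    simp only [hc, if_true, Real.norm_eq_abs] at h1
    exact h1.trans h
  · intro h
    apply lp.norm_le_of_forall_le hC
    intro p
    rw [psi_apply]
    split_ifs with hp
    · exact h p.1 p.2 hp
    · simpa using hC

/-- characterization of the norm of `Y n` -/
theorem norm_le_iff (x : Y n) {C : ℝ} (hC : 0 ≤ C) :
    ‖x‖ ≤ C ↔ (∀ S : Finset (List ℕ), ∑ s ∈ S, (x s) ^ 2 ≤ C ^ 2) ∧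
      ∀ a c : List ℕ, c.length ≤ n → |segSum (fun s => x s) a c| ≤ C := by
  rw [norm_def, max_le_iff, phi_norm_le_iff _ hC, psi_norm_le_iff _ hC]
  rfl

lemma sum_sq_le (x : Y n) (S : Finset (List ℕ)) : ∑ s ∈ S, (x s) ^ 2 ≤ ‖x‖ ^ 2 :=
  ((norm_le_iff x (norm_nonneg x)).mp le_rfl).1 S

lemma abs_segSum_le (x : Y n) (a c : List ℕ) (hc : c.length ≤ n) :
    |segSum (fun s => x s) a c| ≤ ‖x‖ :=
  ((norm_le_iff x (norm_nonneg x)).mp le_rfl).2 a c hc

lemma abs_apply_le (x : Y n) (s : List ℕ) : |x s| ≤ ‖x‖ := by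
  have := abs_segSum_le x s [] (Nat.zero_le n)
  simpa using this

end Y

end Vale.Agent.Lib.P069
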