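import Mathlib

namespace Vale.Agent.Lib.P069

/-- Sum of `x` over the tree segment with bottom node `a` and top node `c ++ a`. -/
def segSum (x : List ℕ → ℝ) (a : List ℕ) : List ℕ → ℝ
  | [] => x a
  | k :: c => x (k :: (c ++ a)) + segSum x a c

@[simp] lemma segSum_nil (x : List ℕ → ℝ) (a : List ℕ) : segSum x a [] = x a := rfl

@[simp] lemma segSum_cons (x : List ℕ → ℝ) (a : List ℕ) (k : ℕ) (c : List ℕ) :
    segSum x a (k :: c) = x (k :: (c ++ a)) + segSum x a c := rfl

lemma segSum_add (x y : List ℕ → ℝ) (a c : List ℕ) :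
    segSum (fun s => x s + y s) a c = segSum x a c + segSum y a c := by
  induction c with
  | nil => rfl
  | cons k c ih => simp only [segSum_cons, ih]; ring

lemma segSum_smul (r : ℝ) (x : List ℕ → ℝ) (a c : List ℕ) :
    segSum (fun s => r * x s) a c = r * segSum x a c := by
  induction c with
  | nil => rfl
  | cons k c ih => simp only [segSum_cons, ih]; ring

lemma segSum_neg (x : List ℕ → ℝ) (a c : List ℕ) :
    segSum (fun s => - x s) a c = - segSum x a c := by
  induction c with
  | nil => rfl
  | cons k c ih => simp only [segSum_cons, ih]; ring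

lemma segSum_congr {x y : List ℕ → ℝ} {a c : List ℕ}
    (h : ∀ d : List ℕ, d <:+ c → x (d ++ a) = y (d ++ a)) : segSum x a c = segSum y a c := by
  induction c with
  | nil => simpa using h [] (List.suffix_refl _)
  | cons k c ih =>
    simp only [segSum_cons]
    rw [ih (fun d hd => h d (hd.trans (List.suffix_cons k c)))]
    have := h (k :: c) (List.suffix_refl _)
    simp only [List.cons_append] at this
    rw [this]

lemma segSum_eq_zero {x : List ℕ → ℝ} {a c : List ℕ}
    (h : ∀ d : List ℕ, d <:+ c → x (d ++ a) = 0) : segSum x a c = 0 := by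
  induction c with
  | nil => simpa using h [] (List.suffix_refl _)
  | cons k c ih =>
    simp only [segSum_cons]
    rw [ih (fun d hd => h d (hd.trans (List.suffix_cons k c)))]
    have := h (k :: c) (List.suffix_refl _)
    simp only [List.cons_append] at this
    rw [this]; ring

lemma segSum_nonneg {x : List ℕ → ℝ} (h : ∀ s, 0 ≤ x s) (a c : List ℕ) :
    0 ≤ segSum x a c := by
  induction c with
  | nil => exact h a
  | cons k c ih => exact add_nonneg (h _) ih

lemma segSum_append_cons (x : List ℕ → ℝ) (a c₀ : List ℕ) (j : ℕ) (e : List ℕ) :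
    segSum x a (c₀ ++ j :: e) = segSum x (j :: (e ++ a)) c₀ + segSum x a e := by
  induction c₀ with
  | nil => simp
  | cons k c₀ ih =>
    simp only [List.cons_append, segSum_cons, ih, List.append_assoc]
    ring

lemma abs_segSum_le_of_forall {x : List ℕ → ℝ} {B : ℝ} (h : ∀ s, |x s| ≤ B) (a c : List ℕ) :
    |segSum x a c| ≤ (c.length + 1) * B := by
  induction c with
  | nil => simpa using h a
  | cons k c ih =>
    simp only [segSum_cons, List.length_cons]
    calc |x (k :: (c ++ a)) + segSum x a c| ≤ |x (k :: (c ++ a))| + |segSum x a c| :=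
          abs_add_le _ _
      _ ≤ B + (c.length + 1) * B := add_le_add (h _) ih
      _ = ((c.length + 1 : ℕ) + 1) * B := by push_cast; ring

/-- `D` contains the root and is closed under passing to the parent. -/
def SuffClosed (D : Set (List ℕ)) : Prop := [] ∈ D ∧ ∀ (k : ℕ) (p : List ℕ), (k :: p) ∈ D → p ∈ D

lemma SuffClosed.mem_of_append {D : Set (List ℕ)} (hD : SuffClosed D) :
    ∀ (c a : List ℕ), c ++ a ∈ D → a ∈ D
  | [], _, h => h
  | k :: c, a, h => hD.mem_of_append c a (hD.2 k (c ++ a) h)

lemma SuffClosed.ne_nil {D : Set (List ℕ)} (hD : SuffClosed D) {a : List ℕ} (ha : a ∉ D) :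
    a ≠ [] := by
  rintro rfl; exact ha hD.1

lemma SuffClosed.append_not_mem {D : Set (List ℕ)} (hD : SuffClosed D) {a : List ℕ}
    (ha : a ∉ D) (c : List ℕ) : c ++ a ∉ D := fun h => ha (hD.mem_of_append c a h)

lemma SuffClosed.suffix_append_mem {D : Set (List ℕ)} (hD : SuffClosed D) {a c d : List ℕ}
    (h : c ++ a ∈ D) (hd : d <:+ c) : d ++ a ∈ D := by
  obtain ⟨e, rfl⟩ := hd
  rw [List.append_assoc] at h
  exact hD.mem_of_append e _ h

section reflection

variable (z : List ℕ → ℝ) (D : Set (List ℕ))

open Classical in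
/-- running sums of `z` from the first node outside `D` on the path to the root -/
noncomputable def sA : List ℕ → ℝ
  | [] => 0
  | k :: p => if (k :: p) ∈ D then 0 else z (k :: p) + sA p

open Classical in
/-- running minimum (with `0`) of `sA` along the path -/
noncomputable def mA : List ℕ → ℝ
  | [] => 0
  | k :: p => if (k :: p) ∈ D then 0 else min (mA p) (sA z D (k :: p))

/-- decrement of the running minimum -/
noncomputable def qm (v : List ℕ) : ℝ := mA z D v.tail - mA z D v

/-- reflected part -/
noncomputable def qp (v : List ℕ) : ℝ := z v + qm z D v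

variable {z D}

lemma sA_cons_not_mem {k : ℕ} {p : List ℕ} (h : (k :: p) ∉ D) :
    sA z D (k :: p) = z (k :: p) + sA z D p := by
  simp [sA, h]

lemma mA_cons_not_mem {k : ℕ} {p : List ℕ} (h : (k :: p) ∉ D) :
    mA z D (k :: p) = min (mA z D p) (sA z D (k :: p)) := by
  simp [mA, h]

lemma sA_of_mem {v : List ℕ} (hv : v ∈ D) : sA z D v = 0 := by
  cases v with
  | nil => rfl
  | cons k p => simp [sA, hv]

lemma mA_of_mem {v : List ℕ} (hv : v ∈ D) : mA z D v = 0 := by
  cases v with
  | nil => rfl
  | cons k p => simp [mA, hv]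

lemma mA_le_sA (v : List ℕ) : mA z D v ≤ sA z D v := by
  cases v with
  | nil => exact le_refl _
  | cons k p =>
    by_cases h : (k :: p) ∈ D
    · rw [mA_of_mem h, sA_of_mem h]
    · rw [mA_cons_not_mem h]; exact min_le_right _ _

lemma qm_nonneg (hD : SuffClosed D) (v : List ℕ) : 0 ≤ qm z D v := by
  cases v with
  | nil => simp [qm]
  | cons k p =>
    by_cases h : (k :: p) ∈ D
    · have hp : p ∈ D := hD.2 k p h
      simp [qm, mA_of_mem h, mA_of_mem hp]
    · simp only [qm, List.tail_cons, mA_cons_not_mem h, sub_nonneg]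
      exact min_le_left _ _

lemma qm_of_mem (hD : SuffClosed D) {v : List ℕ} (hv : v ∈ D) : qm z D v = 0 := by
  cases v with
  | nil => simp [qm]
  | cons k p =>
    have hp : p ∈ D := hD.2 k p hv
    simp [qm, mA_of_mem hv, mA_of_mem hp]

lemma qm_le (hD : SuffClosed D) (v : List ℕ) : qm z D v ≤ max 0 (- z v) := by
  cases v with
  | nil => simp [qm]
  | cons k p =>
    by_cases h : (k :: p) ∈ D
    · rw [qm_of_mem hD h]; exact le_max_left _ _
    · simp only [qm, List.tail_cons, mA_cons_not_mem h, sA_cons_not_mem h]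
      have h1 := mA_le_sA (z := z) (D := D) p
      rcases min_choice (mA z D p) (z (k :: p) + sA z D p) with h2 | h2
      · rw [h2]; simp
      · rw [h2]
        refine le_trans ?_ (le_max_right _ _)
        linarith

lemma abs_qm_le (hD : SuffClosed D) (v : List ℕ) : |qm z D v| ≤ |z v| := by
  rw [abs_of_nonneg (qm_nonneg hD v)]
  refine (qm_le hD v).trans ?_
  exact max_le (abs_nonneg _) (neg_le_abs _)

lemma abs_qp_le (hD : SuffClosed D) (v : List ℕ) : |qp z D v| ≤ |z v| := by
  have h0 := qm_nonneg (z := z) hD v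
  have h1 := qm_le (z := z) hD v
  unfold qp
  rcases le_or_gt 0 (z v) with hz | hz
  · have : qm z D v = 0 := by
      apply le_antisymm _ h0
      refine h1.trans ?_
      exact max_le (le_refl _) (by linarith)
    rw [this, add_zero]
  · have h2 : qm z D v ≤ - z v := h1.trans (max_le (by linarith) (le_refl _))
    rw [abs_le, abs_of_neg hz]
    constructor <;> linarith

lemma sA_seg (hD : SuffClosed D) {a : List ℕ} (ha : a ∉ D) (c : List ℕ) :
    sA z D (c ++ a) = sA z D a.tail + segSum z a c := by
  induction c with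
  | nil =>
    cases a with
    | nil => exact absurd hD.1 ha
    | cons j p => simp [sA_cons_not_mem ha, add_comm]
  | cons k c ih =>
    have h : (k :: (c ++ a)) ∉ D := hD.append_not_mem ha (k :: c)
    simp only [List.cons_append, sA_cons_not_mem h, ih, segSum_cons]
    ring

lemma segSum_qm (a c : List ℕ) :
    segSum (qm z D) a c = mA z D a.tail - mA z D (c ++ a) := by
  induction c with
  | nil => simp [qm]
  | cons k c ih =>
    simp only [segSum_cons, ih, List.cons_append]
    simp only [qm, List.tail_cons]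
    ring

lemma mA_seg_cases (hD : SuffClosed D) {a : List ℕ} (ha : a ∉ D) (c : List ℕ) :
    mA z D (c ++ a) = mA z D a.tail ∨
      ∃ e d : List ℕ, c = e ++ d ∧ mA z D (c ++ a) = sA z D a.tail + segSum z a d := by
  induction c with
  | nil =>
    cases a with
    | nil => exact absurd hD.1 ha
    | cons j p =>
      simp only [List.nil_append, List.tail_cons]
      rw [mA_cons_not_mem ha]
      rcases min_choice (mA z D p) (sA z D (j :: p)) with h2 | h2
      · left; exact h2
      · right
        refine ⟨[], [], rfl, ?_⟩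
        rw [h2, sA_cons_not_mem ha]; simp [add_comm]
  | cons k c ih =>
    have h : (k :: (c ++ a)) ∉ D := hD.append_not_mem ha (k :: c)
    simp only [List.cons_append]
    rw [mA_cons_not_mem h]
    rcases min_choice (mA z D (c ++ a)) (sA z D (k :: (c ++ a))) with h2 | h2
    · rw [h2]
      rcases ih with h3 | ⟨e, d, hc, h3⟩
      · left; exact h3
      · right; exact ⟨k :: e, d, by simp [hc], h3⟩
    · right
      refine ⟨[], k :: c, rfl, ?_⟩
      rw [h2]
      have := sA_seg (z := z) hD ha (k :: c)
      simpa using this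

variable {n : ℕ} {B : ℝ}

lemma segSum_qm_bounds (hD : SuffClosed D)
    (hz : ∀ a c : List ℕ, c.length ≤ n → |segSum z a c| ≤ B)
    {a : List ℕ} (ha : a ∉ D) {c : List ℕ} (hc : c.length ≤ n) :
    0 ≤ segSum (qm z D) a c ∧ segSum (qm z D) a c ≤ B := by
  have hB : 0 ≤ B := (abs_nonneg _).trans (hz [] [] (Nat.zero_le n))
  refine ⟨segSum_nonneg (qm_nonneg hD) a c, ?_⟩
  rw [segSum_qm]
  rcases mA_seg_cases (z := z) hD ha c with h | ⟨e, d, hcd, h⟩
  · rw [h]; simpa using hB
  · rw [h]
    have h1 := mA_le_sA (z := z) (D := D) a.tail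
    have h2 : |segSum z a d| ≤ B := hz a d (by
      have : d.length ≤ c.length := by rw [hcd]; simp
      omega)
    have h3 := neg_le_of_abs_le h2
    linarith

lemma segSum_qp_eq (a c : List ℕ) :
    segSum (qp z D) a c = segSum z a c + segSum (qm z D) a c := by
  have : qp z D = fun s => z s + qm z D s := rfl
  rw [this, segSum_add]

lemma segSum_qp_bounds (hD : SuffClosed D)
    (hz : ∀ a c : List ℕ, c.length ≤ n → |segSum z a c| ≤ B)
    {a : List ℕ} (ha : a ∉ D) {c : List ℕ} (hc : c.length ≤ n) :
    - B ≤ segSum (qp z D) a c ∧ segSum (qp z D) a c ≤ B := by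
  have hB : 0 ≤ B := (abs_nonneg _).trans (hz [] [] (Nat.zero_le n))
  have hq := segSum_qm_bounds hD hz ha hc
  have hzc := abs_le.mp (hz a c hc)
  rw [segSum_qp_eq]
  refine ⟨by linarith [hq.1, hzc.1], ?_⟩
  rw [segSum_qm]
  rcases mA_seg_cases (z := z) hD ha c with h | ⟨e, d, hcd, h⟩
  · rw [h]; linarith [hzc.2]
  · rw [h]
    have h1 := mA_le_sA (z := z) (D := D) a.tail
    rcases List.eq_nil_or_concat e with he | ⟨e₀, j, he⟩
    · subst he
      simp only [List.nil_append] at hcd
      subst hcd
      linarith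
    · subst he
      have hcd' : c = e₀ ++ j :: d := by rw [hcd]; simp
      have hlen : e₀.length ≤ n := by
        have : e₀.length ≤ c.length := by rw [hcd']; simp
        omega
      have h4 := abs_le.mp (hz (j :: (d ++ a)) e₀ hlen)
      rw [hcd', segSum_append_cons]
      linarith [h4.2]

lemma segSum_qp_nonneg_entry (hD : SuffClosed D) {a : List ℕ} (ha : a ∉ D)
    (hat : a.tail ∈ D) (c : List ℕ) : 0 ≤ segSum (qp z D) a c := by
  rw [segSum_qp_eq, segSum_qm]
  have h1 := sA_seg (z := z) hD ha c
  have h2 := mA_le_sA (z := z) (D := D) (c ++ a)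
  rw [sA_of_mem hat] at h1
  rw [mA_of_mem hat]
  linarith

end reflection

/-- All segments of `x` ending at `u` (with at most `n + 1` nodes) have sum at most `1/2`. -/
def GoodP (x : List ℕ → ℝ) (n : ℕ) (u : List ℕ) : Prop :=
  ∀ c a : List ℕ, c ++ a = u → c.length ≤ n → segSum x a c ≤ 1 / 2

lemma not_goodP_lower {x : List ℕ → ℝ} {n : ℕ}
    (hx : ∀ a c : List ℕ, c.length ≤ n → |segSum x a c| ≤ 1) {u : List ℕ}
    (h : ¬ GoodP x n u) (c a : List ℕ) (hca : c ++ a = u) (hc : c.length ≤ n) :
    - (1 / 2) ≤ segSum x a c := by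
  unfold GoodP at h
  push Not at h
  obtain ⟨c₀, a₀, h0, hc0, hgt⟩ := h
  have heq : c ++ a = c₀ ++ a₀ := by rw [hca, h0]
  rcases List.append_eq_append_iff.mp heq with ⟨e, he1, he2⟩ | ⟨e, he1, he2⟩
  · -- c₀ = c ++ e, a = e ++ a₀
    cases e with
    | nil =>
      simp only [List.append_nil] at he1
      simp only [List.nil_append] at he2
      subst he1; subst he2; linarith
    | cons j e' =>
      have hlen : e'.length ≤ n := by
        have : e'.length ≤ c₀.length := by rw [he1]; simp; omega
        omega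
      have h1 := abs_le.mp (hx a₀ e' hlen)
      rw [he1, segSum_append_cons] at hgt
      rw [he2]
      simp only [List.cons_append]
      linarith [h1.2]
  · -- c = c₀ ++ e, a₀ = e ++ a
    cases e with
    | nil =>
      simp only [List.append_nil] at he1
      simp only [List.nil_append] at he2
      subst he1; subst he2; linarith
    | cons j e' =>
      have hlen : e'.length ≤ n := by
        have : e'.length ≤ c.length := by rw [he1]; simp; omega
        omega
      have h1 := abs_le.mp (hx a e' hlen)
      rw [he1, segSum_append_cons]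
      rw [he2] at hgt
      simp only [List.cons_append] at hgt
      linarith [h1.1]

open Classical in
/-- the sign chosen at the entry point below which the node lies -/
noncomputable def sg (x : List ℕ → ℝ) (n : ℕ) (D : Set (List ℕ)) : List ℕ → Bool
  | [] => true
  | _ :: p => if p ∈ D then decide (GoodP x n p) else sg x n D p

lemma sg_append {x : List ℕ → ℝ} {n : ℕ} {D : Set (List ℕ)} (hD : SuffClosed D)
    {a : List ℕ} (ha : a ∉ D) (c : List ℕ) : sg x n D (c ++ a) = sg x n D a := by
  induction c with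
  | nil => rfl
  | cons k c ih =>
    have h : (c ++ a) ∉ D := hD.append_not_mem ha c
    simp only [List.cons_append, sg, h, if_false]
    exact ih

lemma sg_cons_mem {x : List ℕ → ℝ} {n : ℕ} {D : Set (List ℕ)} {j : ℕ} {p : List ℕ}
    (hp : p ∈ D) : sg x n D (j :: p) = true ↔ GoodP x n p := by
  simp [sg, hp]

lemma split_cross {D : Set (List ℕ)} {a : List ℕ} (ha : a ∈ D) :
    ∀ c : List ℕ, c ++ a ∉ D →
      ∃ (c₀ : List ℕ) (j : ℕ) (e : List ℕ), c = c₀ ++ j :: e ∧ e ++ a ∈ D ∧ (j :: (e ++ a)) ∉ D
  | [], h => absurd ha h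
  | k :: c, h => by
    by_cases hc : c ++ a ∈ D
    · exact ⟨[], k, c, rfl, hc, h⟩
    · obtain ⟨c₀, j, e, h1, h2, h3⟩ := split_cross ha c hc
      exact ⟨k :: c₀, j, e, by simp [h1], h2, h3⟩

/-- the segment estimate for a combination of `x` (living on `D`) and a signed pair -/
theorem seg_ball_gen {n : ℕ} {D : Set (List ℕ)} (hD : SuffClosed D)
    {x qplus qminus : List ℕ → ℝ}
    (hxD : ∀ s, s ∉ D → x s = 0)
    (hx : ∀ a c : List ℕ, c.length ≤ n → |segSum x a c| ≤ 1)
    (H1 : ∀ s ∈ D, qplus s = 0 ∧ qminus s = 0)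
    (H2 : ∀ a, a ∉ D → ∀ c : List ℕ, c.length ≤ n →
      |segSum qplus a c| ≤ 1 ∧ |segSum qminus a c| ≤ 1)
    (H3 : ∀ a, a ∉ D → a.tail ∈ D → ∀ c : List ℕ, c.length ≤ n →
      0 ≤ segSum qplus a c ∧ segSum qminus a c ≤ 0)
    {α β : ℝ} (hα0 : 0 ≤ α) (hα1 : α ≤ 1) (hβ0 : 0 ≤ β) (hβ : β ≤ 1 / 2)
    (a c : List ℕ) (hc : c.length ≤ n) :
    |segSum (fun v => α * x v + β * (if sg x n D v then qplus v else qminus v)) a c| ≤ 1 := by
  set ζ : List ℕ → ℝ := fun v => if sg x n D v then qplus v else qminus v with hζ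
  have hlin : ∀ a c : List ℕ, segSum (fun v => α * x v + β * ζ v) a c =
      α * segSum x a c + β * segSum ζ a c := by
    intro a c
    rw [segSum_add (fun v => α * x v) (fun v => β * ζ v), segSum_smul, segSum_smul]
  -- segments outside D
  have hU : ∀ a, a ∉ D → ∀ c : List ℕ, segSum x a c = 0 ∧
      segSum ζ a c = if sg x n D a then segSum qplus a c else segSum qminus a c := by
    intro a ha c
    constructor
    · exact segSum_eq_zero (fun d _ => hxD _ (hD.append_not_mem ha d))
    · by_cases hs : sg x n D a = true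
      · rw [if_pos hs]
        apply segSum_congr
        intro d _
        simp only [hζ]
        rw [sg_append hD ha d, if_pos hs]
      · rw [if_neg hs]
        apply segSum_congr
        intro d _
        simp only [hζ]
        rw [sg_append hD ha d, if_neg hs]
  -- segments inside D
  have hI : ∀ a c : List ℕ, c ++ a ∈ D → segSum ζ a c = 0 := by
    intro a c h
    apply segSum_eq_zero
    intro d hd
    have hm : d ++ a ∈ D := hD.suffix_append_mem h hd
    simp only [hζ]
    split_ifs
    · exact (H1 _ hm).1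
    · exact (H1 _ hm).2
  rw [hlin]
  by_cases ha : a ∈ D
  · by_cases hca : c ++ a ∈ D
    · rw [hI a c hca, mul_zero, add_zero, abs_mul, abs_of_nonneg hα0]
      have := hx a c hc
      nlinarith [abs_nonneg (segSum x a c)]
    · obtain ⟨c₀, j, e, h1, h2, h3⟩ := split_cross ha c hca
      have hlen0 : c₀.length ≤ n := by
        have : c₀.length ≤ c.length := by rw [h1]; simp
        omega
      have hlene : e.length ≤ n := by
        have : e.length ≤ c.length := by rw [h1]; simp; omega
        omega
      rw [h1, segSum_append_cons, segSum_append_cons]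
      obtain ⟨hx0, hζ0⟩ := hU _ h3 c₀
      rw [hx0, hζ0, hI a e h2]
      have hxe := abs_le.mp (hx a e hlene)
      have hsg : sg x n D (j :: (e ++ a)) = true ↔ GoodP x n (e ++ a) := sg_cons_mem h2
      have hH2 := H2 _ h3 c₀ hlen0
      have hH3 := H3 _ h3 (by simpa using h2) c₀ hlen0
      by_cases hg : GoodP x n (e ++ a)
      · have hs : sg x n D (j :: (e ++ a)) = true := hsg.mpr hg
        rw [if_pos hs]
        have hp1 := (abs_le.mp hH2.1).2
        have hp0 := hH3.1
        have hxe2 : segSum x a e ≤ 1 / 2 := hg e a rfl hlene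
        rw [abs_le]
        constructor <;> nlinarith
      · have hs : ¬ (sg x n D (j :: (e ++ a)) = true) := fun h => hg (hsg.mp h)
        rw [if_neg hs]
        have hp1 := (abs_le.mp hH2.2).1
        have hp0 := hH3.2
        have hxe2 : - (1 / 2) ≤ segSum x a e := not_goodP_lower hx hg e a rfl hlene
        rw [abs_le]
        constructor <;> nlinarith
  · obtain ⟨hx0, hζ0⟩ := hU a ha c
    rw [hx0, hζ0]
    have hH2 := H2 a ha c hc
    split_ifs
    · rw [mul_zero, zero_add, abs_mul, abs_of_nonneg hβ0]
      nlinarith [abs_nonneg (segSum qplus a c)]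
    · rw [mul_zero, zero_add, abs_mul, abs_of_nonneg hβ0]
      nlinarith [abs_nonneg (segSum qminus a c)]

/-- first component of the signed decomposition of `z` -/
noncomputable def zOne (x z : List ℕ → ℝ) (n : ℕ) (D : Set (List ℕ)) (v : List ℕ) : ℝ :=
  if sg x n D v then qp z D v else - qp (fun s => - z s) D v

/-- second component of the signed decomposition of `z` -/
noncomputable def zTwo (x z : List ℕ → ℝ) (n : ℕ) (D : Set (List ℕ)) (v : List ℕ) : ℝ :=
  if sg x n D v then qm z D v else - qm (fun s => - z s) D v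

lemma zOne_sub_zTwo (x z : List ℕ → ℝ) (n : ℕ) (D : Set (List ℕ)) (v : List ℕ) :
    zOne x z n D v - zTwo x z n D v = z v := by
  unfold zOne zTwo qp
  split_ifs <;> ring

lemma abs_zOne_le {x z : List ℕ → ℝ} {n : ℕ} {D : Set (List ℕ)} (hD : SuffClosed D)
    (v : List ℕ) : |zOne x z n D v| ≤ |z v| := by
  unfold zOne
  split_ifs
  · exact abs_qp_le hD v
  · rw [abs_neg]
    have := abs_qp_le (z := fun s => - z s) hD v
    simpa using this

lemma abs_zTwo_le {x z : List ℕ → ℝ} {n : ℕ} {D : Set (List ℕ)} (hD : SuffClosed D)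
    (v : List ℕ) : |zTwo x z n D v| ≤ |z v| := by
  unfold zTwo
  split_ifs
  · exact abs_qm_le hD v
  · rw [abs_neg]
    have := abs_qm_le (z := fun s => - z s) hD v
    simpa using this

lemma qp_of_mem {z : List ℕ → ℝ} {D : Set (List ℕ)} (hD : SuffClosed D) {v : List ℕ}
    (hz : z v = 0) (hv : v ∈ D) : qp z D v = 0 := by
  unfold qp
  rw [hz, qm_of_mem hD hv, add_zero]

lemma zOne_of_mem {x z : List ℕ → ℝ} {n : ℕ} {D : Set (List ℕ)} (hD : SuffClosed D)
    (hzD : ∀ s ∈ D, z s = 0) {v : List ℕ} (hv : v ∈ D) : zOne x z n D v = 0 := by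
  unfold zOne
  split_ifs
  · exact qp_of_mem hD (hzD v hv) hv
  · rw [qp_of_mem hD (by simp [hzD v hv]) hv, neg_zero]

lemma zTwo_of_mem {x z : List ℕ → ℝ} {n : ℕ} {D : Set (List ℕ)} (hD : SuffClosed D)
    {v : List ℕ} (hv : v ∈ D) : zTwo x z n D v = 0 := by
  unfold zTwo
  split_ifs
  · exact qm_of_mem hD hv
  · rw [qm_of_mem hD hv, neg_zero]

theorem seg_ball {n : ℕ} {D : Set (List ℕ)} (hD : SuffClosed D) {x z : List ℕ → ℝ}
    (hxD : ∀ s, s ∉ D → x s = 0) (hzD : ∀ s ∈ D, z s = 0)
    (hx : ∀ a c : List ℕ, c.length ≤ n → |segSum x a c| ≤ 1)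
    (hz : ∀ a c : List ℕ, c.length ≤ n → |segSum z a c| ≤ 1)
    {α β : ℝ} (hα0 : 0 ≤ α) (hα1 : α ≤ 1) (hβ0 : 0 ≤ β) (hβ : β ≤ 1 / 2)
    (a c : List ℕ) (hc : c.length ≤ n) :
    |segSum (fun v => α * x v + β * zOne x z n D v) a c| ≤ 1 ∧
      |segSum (fun v => α * x v + β * zTwo x z n D v) a c| ≤ 1 := by
  have hz' : ∀ a c : List ℕ, c.length ≤ n → |segSum (fun s => - z s) a c| ≤ 1 := by
    intro a c hc
    rw [segSum_neg, abs_neg]
    exact hz a c hc
  have hzD' : ∀ s ∈ D, (fun s => - z s) s = 0 := by
    intro s hs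
    simp [hzD s hs]
  constructor
  · have key := seg_ball_gen (n := n) hD (x := x) (qplus := qp z D)
      (qminus := fun v => - qp (fun s => - z s) D v) hxD hx
      (fun s hs => ⟨qp_of_mem hD (hzD s hs) hs, by
        show - qp (fun s => - z s) D s = 0
        rw [qp_of_mem hD (hzD' s hs) hs, neg_zero]⟩)
      (fun a ha c hc => by
        constructor
        · have h := segSum_qp_bounds hD hz ha hc
          exact abs_le.mpr h
        · rw [segSum_neg, abs_neg]
          have h := segSum_qp_bounds hD hz' ha hc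
          exact abs_le.mpr h)
      (fun a ha hat c _ => by
        constructor
        · exact segSum_qp_nonneg_entry hD ha hat c
        · rw [segSum_neg]
          have := segSum_qp_nonneg_entry (z := fun s => - z s) hD ha hat c
          linarith)
      hα0 hα1 hβ0 hβ a c hc
    exact key
  · have key := seg_ball_gen (n := n) hD (x := x) (qplus := qm z D)
      (qminus := fun v => - qm (fun s => - z s) D v) hxD hx
      (fun s hs => ⟨qm_of_mem hD hs, by
        show - qm (fun s => - z s) D s = 0
        rw [qm_of_mem hD hs, neg_zero]⟩)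
      (fun a ha c hc => by
        constructor
        · have h := segSum_qm_bounds hD hz ha hc
          exact abs_le.mpr ⟨by linarith [h.1], h.2⟩
        · rw [segSum_neg, abs_neg]
          have h := segSum_qm_bounds hD hz' ha hc
          exact abs_le.mpr ⟨by linarith [h.1], h.2⟩)
      (fun a ha _ c _ => by
        constructor
        · exact segSum_nonneg (qm_nonneg hD) a c
        · rw [segSum_neg]
          have := segSum_nonneg (qm_nonneg (z := fun s => - z s) hD) a c
          linarith)
      hα0 hα1 hβ0 hβ a c hc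
    exact key

end Vale.Agent.Lib.P069
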